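/-
Row 152, module A (Kuznetsov), part 1: computability toolbox.
* `rePred_of_exists`: a predicate with computable certificates is r.e.
* primitive recursiveness of free reduction, formal inverse, products of conjugates.
-/
import Mathlib

set_option autoImplicit false

namespace Claimed.Agent.R152.A

/-- A predicate of the form `∃ b, c a b = true` with `c` computable is recursively enumerable. -/
theorem rePred_of_exists {α β : Type*} [Primcodable α] [Primcodable β] {p : α → Prop}
    (c : α → β → Bool) (hc : Computable₂ c) (h : ∀ a, p a ↔ ∃ b, c a b = true) : REPred p := by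
  let f : α → ℕ → Option Unit := fun a n =>
    (Encodable.decode (α := β) n).bind fun b => if c a b = true then some () else none
  have hf : Computable₂ f := by
    refine Computable.option_bind (Computable.decode.comp Computable.snd) ?_
    have h1 : Computable fun x : (α × ℕ) × β => c x.1.1 x.2 :=
      hc.comp (Computable.fst.comp Computable.fst) Computable.snd
    exact (Computable.cond h1 (Computable.const (some ())) (Computable.const none)).of_eq
      (fun x => by cases hx : c x.1.1 x.2 <;> simp [hx])
  have hp : Partrec fun a => Nat.rfindOpt (f a) := Partrec.rfindOpt hf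
  refine hp.dom_re.of_eq fun a => ?_
  rw [Nat.rfindOpt_dom, h]
  constructor
  · rintro ⟨n, u, hu⟩
    simp only [f, Option.mem_def, Option.bind_eq_some_iff] at hu
    obtain ⟨b, -, hb⟩ := hu
    refine ⟨b, ?_⟩
    by_contra hcon
    simp [hcon] at hb
  · rintro ⟨b, hb⟩
    refine ⟨Encodable.encode b, (), ?_⟩
    simp [f, hb]

/-- Words over `Fin m`. -/
abbrev W (m : ℕ) := List (Fin m × Bool)

/-- one step of free reduction -/
def redStep {m : ℕ} (x : Fin m × Bool) (ih : W m) : W m :=
  List.casesOn ih [x] fun hd tl => if x.1 = hd.1 ∧ x.2 = not hd.2 then tl else x :: hd :: tl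

theorem reduce_eq_foldr {m : ℕ} (L : W m) : FreeGroup.reduce L = L.foldr redStep [] := by
  induction L with
  | nil => rfl
  | cons x L ih => rw [FreeGroup.reduce.cons, List.foldr_cons, ← ih]; rfl

theorem primrec_redStep {m : ℕ} : Primrec₂ (redStep (m := m)) := by
  have hp : PrimrecPred fun x : ((Fin m × Bool) × W m) × ((Fin m × Bool) × W m) =>
      x.1.1.1 = x.2.1.1 ∧ x.1.1.2 = not x.2.1.2 := by
    refine PrimrecPred.and ?_ ?_
    · exact Primrec.eq.comp (Primrec.fst.comp (Primrec.fst.comp Primrec.fst))
        (Primrec.fst.comp (Primrec.fst.comp Primrec.snd))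
    · exact Primrec.eq.comp (Primrec.snd.comp (Primrec.fst.comp Primrec.fst))
        (Primrec.not.comp (Primrec.snd.comp (Primrec.fst.comp Primrec.snd)))
  have h2 : Primrec₂ fun (x : (Fin m × Bool) × W m) (y : (Fin m × Bool) × W m) =>
      if x.1.1 = y.1.1 ∧ x.1.2 = not y.1.2 then y.2 else x.1 :: y.1 :: y.2 :=
    Primrec.ite hp (Primrec.snd.comp Primrec.snd)
      (Primrec.list_cons.comp (Primrec.fst.comp Primrec.fst)
        (Primrec.list_cons.comp (Primrec.fst.comp Primrec.snd) (Primrec.snd.comp Primrec.snd)))
  have h := Primrec.list_casesOn (f := fun x : (Fin m × Bool) × W m => x.2) Primrec.snd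
    (Primrec.list_cons.comp Primrec.fst (Primrec.const ([] : W m))) h2
  exact h.of_eq fun x => rfl

theorem primrec_reduce {m : ℕ} : Primrec (FreeGroup.reduce : W m → W m) := by
  have h : Primrec fun L : W m => L.foldr (fun b s => redStep b s) [] :=
    Primrec.list_foldr (h := fun _ (p : (Fin m × Bool) × W m) => redStep p.1 p.2)
      Primrec.id (Primrec.const [])
      (primrec_redStep.comp (Primrec.fst.comp Primrec.snd) (Primrec.snd.comp Primrec.snd))
  exact h.of_eq fun L => (reduce_eq_foldr L).symm

theorem primrec_invRev {m : ℕ} : Primrec (FreeGroup.invRev : W m → W m) := by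
  unfold FreeGroup.invRev
  refine Primrec.list_reverse.comp (Primrec.list_map Primrec.id ?_)
  exact Primrec.pair (Primrec.fst.comp Primrec.snd) (Primrec.not.comp (Primrec.snd.comp Primrec.snd))

/-- A certificate: list of (conjugator, index of relator, sign). -/
abbrev Cert (m : ℕ) := List (W m × ℕ × Bool)

/-- one conjugate `u r^{±1} u⁻¹` -/
def conjFactor {m : ℕ} (R : List (W m)) (c : W m × ℕ × Bool) : W m :=
  c.1 ++ ((if c.2.2 = true then R.getD c.2.1 [] else FreeGroup.invRev (R.getD c.2.1 [])) ++
    FreeGroup.invRev c.1)

/-- product of conjugates described by a certificate -/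
def conjProd {m : ℕ} (R : List (W m)) (cert : Cert m) : W m :=
  cert.flatMap (conjFactor R)

theorem primrec_conjFactor {m : ℕ} : Primrec₂ (conjFactor (m := m)) := by
  unfold conjFactor
  have hget : Primrec fun x : List (W m) × (W m × ℕ × Bool) => x.1.getD x.2.2.1 [] :=
    (Primrec.list_getD []).comp Primrec.fst (Primrec.fst.comp (Primrec.snd.comp Primrec.snd))
  have hb : PrimrecPred fun x : List (W m) × (W m × ℕ × Bool) => x.2.2.2 = true :=
    Primrec.eq.comp (Primrec.snd.comp (Primrec.snd.comp Primrec.snd)) (Primrec.const true)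
  refine Primrec.list_append.comp (Primrec.fst.comp Primrec.snd) (Primrec.list_append.comp
    (Primrec.ite hb hget (primrec_invRev.comp hget))
    (primrec_invRev.comp (Primrec.fst.comp Primrec.snd)))

theorem primrec_conjProd {m : ℕ} : Primrec₂ (conjProd (m := m)) := by
  unfold conjProd
  exact Primrec.list_flatMap Primrec.snd
    (primrec_conjFactor.comp (Primrec.fst.comp Primrec.fst) Primrec.snd)

/-- the certificate checker -/
def check {m : ℕ} (R : List (W m)) (target : W m) (cert : Cert m) : Bool :=
  decide (FreeGroup.reduce (conjProd R cert) = FreeGroup.reduce target)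

theorem primrec_check {m : ℕ} :
    Primrec fun x : (List (W m) × W m) × Cert m => check x.1.1 x.1.2 x.2 := by
  unfold check
  have : PrimrecPred fun x : (List (W m) × W m) × Cert m =>
      FreeGroup.reduce (conjProd x.1.1 x.2) = FreeGroup.reduce x.1.2 :=
    Primrec.eq.comp
      (primrec_reduce.comp (primrec_conjProd.comp (Primrec.fst.comp Primrec.fst) Primrec.snd))
      (primrec_reduce.comp (Primrec.snd.comp Primrec.fst))
  exact this.decide

end Claimed.Agent.R152.A
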