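/-
Row 152, module A (Kuznetsov), part 2: membership in a normal closure has certificates.
-/
import Claimed.Agent.R152.A.Comp

set_option autoImplicit false

namespace Claimed.Agent.R152.A

section grp
variable {F : Type*} [Group F]

/-- group level factor -/
def gFactor (r : ℕ → F) (c : F × ℕ × Bool) : F :=
  c.1 * ((if c.2.2 = true then r c.2.1 else (r c.2.1)⁻¹) * c.1⁻¹)

/-- group level product of conjugates -/
def gProd (r : ℕ → F) (cert : List (F × ℕ × Bool)) : F := (cert.map (gFactor r)).prod

theorem gFactor_mem (r : ℕ → F) (c : F × ℕ × Bool) :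
    gFactor r c ∈ Subgroup.normalClosure (Set.range r) := by
  have h : r c.2.1 ∈ Subgroup.normalClosure (Set.range r) :=
    Subgroup.subset_normalClosure ⟨_, rfl⟩
  have h' : (if c.2.2 = true then r c.2.1 else (r c.2.1)⁻¹) ∈
      Subgroup.normalClosure (Set.range r) := by
    split_ifs
    · exact h
    · exact inv_mem h
  have := Subgroup.normalClosure_normal.conj_mem _ h' c.1
  simpa [gFactor, mul_assoc] using this

theorem gProd_mem (r : ℕ → F) (cert : List (F × ℕ × Bool)) :
    gProd r cert ∈ Subgroup.normalClosure (Set.range r) := by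
  refine Subgroup.list_prod_mem _ fun x hx => ?_
  obtain ⟨c, -, rfl⟩ := List.mem_map.1 hx
  exact gFactor_mem r c

/-- the subgroup of all products of conjugates -/
def gSub (r : ℕ → F) : Subgroup F where
  carrier := {x | ∃ cert, gProd r cert = x}
  one_mem' := ⟨[], rfl⟩
  mul_mem' := by
    rintro _ _ ⟨a, rfl⟩ ⟨b, rfl⟩
    exact ⟨a ++ b, by simp [gProd]⟩
  inv_mem' := by
    rintro _ ⟨a, rfl⟩
    refine ⟨(a.map fun c => (c.1, c.2.1, !c.2.2)).reverse, ?_⟩
    induction a with
    | nil => simp [gProd]
    | cons c a ih =>
      simp only [gProd, List.map_cons, List.reverse_cons, List.map_append, List.map_nil,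
        List.prod_append, List.prod_cons, List.prod_nil, mul_one, mul_inv_rev] at ih ⊢
      rw [ih]
      congr 1
      rcases c with ⟨u, i, b⟩
      cases b <;> simp [gFactor, mul_assoc]

theorem gSub_normal (r : ℕ → F) : (gSub r).Normal := by
  constructor
  rintro _ ⟨a, rfl⟩ g
  refine ⟨a.map fun c => (g * c.1, c.2), ?_⟩
  induction a with
  | nil => simp [gProd]
  | cons c a ih =>
    simp only [gProd, List.map_cons, List.prod_cons] at ih ⊢
    rw [ih]
    simp [gFactor, mul_assoc]

theorem mem_normalClosure_iff (r : ℕ → F) (x : F) :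
    x ∈ Subgroup.normalClosure (Set.range r) ↔ ∃ cert, gProd r cert = x := by
  constructor
  · intro hx
    have := gSub_normal r
    have hle : Subgroup.normalClosure (Set.range r) ≤ gSub r := by
      refine Subgroup.normalClosure_le_normal ?_
      rintro _ ⟨i, rfl⟩
      exact ⟨[(1, i, true)], by simp [gProd, gFactor]⟩
    exact hle hx
  · rintro ⟨cert, rfl⟩
    exact gProd_mem r cert

end grp

section word
variable {m : ℕ}

/-- the sequence of relators in the free group defined by a list of words -/
def relSeq (R : List (W m)) (i : ℕ) : FreeGroup (Fin m) := FreeGroup.mk (R.getD i [])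

theorem mk_conjFactor (R : List (W m)) (c : W m × ℕ × Bool) :
    FreeGroup.mk (conjFactor R c) = gFactor (relSeq R) (FreeGroup.mk c.1, c.2) := by
  rcases c with ⟨u, i, b⟩
  cases b <;> simp [conjFactor, gFactor, relSeq, ← FreeGroup.mul_mk, FreeGroup.inv_mk]

theorem mk_conjProd (R : List (W m)) (cert : Cert m) :
    FreeGroup.mk (conjProd R cert) =
      gProd (relSeq R) (cert.map fun c => (FreeGroup.mk c.1, c.2)) := by
  induction cert with
  | nil => rfl
  | cons c cert ih =>
    simp only [conjProd, gProd, List.flatMap_cons, List.map_cons, List.prod_cons,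
      ← FreeGroup.mul_mk] at ih ⊢
    rw [ih, mk_conjFactor]

theorem check_iff (R : List (W m)) (t : W m) :
    FreeGroup.mk t ∈ Subgroup.normalClosure (Set.range (relSeq R)) ↔
      ∃ cert, check R t cert = true := by
  rw [mem_normalClosure_iff]
  constructor
  · rintro ⟨cert, h⟩
    refine ⟨cert.map fun c => (c.1.toWord, c.2), ?_⟩
    simp only [check, decide_eq_true_eq]
    apply FreeGroup.reduce.sound
    rw [mk_conjProd, ← h]
    congr 1
    rw [List.map_map]
    conv_rhs => rw [← List.map_id cert]
    refine List.map_congr_left fun c _ => ?_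
    simp [FreeGroup.mk_toWord]
  · rintro ⟨cert, h⟩
    simp only [check, decide_eq_true_eq] at h
    exact ⟨_, (mk_conjProd R cert).symm.trans (FreeGroup.reduce.exact h)⟩

theorem range_relSeq_subset (R : List (W m)) :
    Set.range (relSeq R) ⊆ insert 1 {x | ∃ w ∈ R, FreeGroup.mk w = x} := by
  rintro _ ⟨i, rfl⟩
  by_cases hi : i < R.length
  · right
    refine ⟨R[i], List.getElem_mem hi, ?_⟩
    simp [relSeq, List.getElem?_eq_getElem hi]
  · left
    simp [relSeq, List.getElem?_eq_none (not_lt.1 hi), FreeGroup.one_eq_mk]

theorem mem_range_relSeq (R : List (W m)) {w : W m} (hw : w ∈ R) :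
    FreeGroup.mk w ∈ Set.range (relSeq R) := by
  obtain ⟨i, hi, rfl⟩ := List.getElem_of_mem hw
  exact ⟨i, by simp [relSeq, List.getElem?_eq_getElem hi]⟩

/-- normal closure of the relator sequence = normal closure of the set of relators -/
theorem normalClosure_relSeq (R : List (W m)) :
    Subgroup.normalClosure (Set.range (relSeq R)) =
      Subgroup.normalClosure {x | ∃ w ∈ R, FreeGroup.mk w = x} := by
  apply le_antisymm
  · refine Subgroup.normalClosure_le_normal fun x hx => ?_
    rcases range_relSeq_subset R hx with h | h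
    · rw [Set.mem_singleton_iff.1 h]; exact one_mem _
    · exact Subgroup.subset_normalClosure h
  · refine Subgroup.normalClosure_le_normal ?_
    rintro _ ⟨w, hw, rfl⟩
    exact Subgroup.subset_normalClosure (mem_range_relSeq R hw)

end word

end Claimed.Agent.R152.A
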