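/-
Row 152, module A (Kuznetsov): a finitely generated subgroup of a finitely presented simple group
has decidable word problem (in the sense of `Def_0272`).
-/
import Claimed.Prelude.Def_0272
import Claimed.Agent.R152.A.Cert

set_option autoImplicit false

namespace Claimed.Agent.R152.A

open Claims.C0272.FiniteAlgebraicEnvelopes

universe u

section simple
variable {F T : Type*} [Group F] [Group T] [IsSimpleGroup T]

/-- The simple group trick: `φ x ≠ 1` iff adding `x` to the relators kills a fixed nontrivial
element `t₀`. -/
theorem simple_trick (φ : F →* T) (hφ : Function.Surjective φ) (S : Set F)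
    (hS : Subgroup.normalClosure S = φ.ker) (t₀ : F) (ht₀ : φ t₀ ≠ 1) (x : F) :
    φ x ≠ 1 ↔ t₀ ∈ Subgroup.normalClosure (insert x S) := by
  constructor
  · intro hx
    set M := Subgroup.normalClosure (insert x S) with hM
    have hker : φ.ker ≤ M := by
      rw [← hS]
      exact Subgroup.normalClosure_mono (Set.subset_insert _ _)
    have hn : (M.map φ).Normal := Subgroup.Normal.map Subgroup.normalClosure_normal φ hφ
    have htop : M.map φ = ⊤ := by
      rcases hn.eq_bot_or_eq_top with h | h
      · exfalso
        apply hx
        have : φ x ∈ M.map φ :=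
          Subgroup.mem_map_of_mem φ (Subgroup.subset_normalClosure (Set.mem_insert _ _))
        rw [h] at this
        exact Subgroup.mem_bot.1 this
      · exact h
    have : φ t₀ ∈ M.map φ := by rw [htop]; trivial
    obtain ⟨y, hy, hyt⟩ := Subgroup.mem_map.1 this
    have h1 : y⁻¹ * t₀ ∈ φ.ker := by
      rw [MonoidHom.mem_ker, map_mul, map_inv, hyt, inv_mul_cancel]
    have := M.mul_mem hy (hker h1)
    simpa using this
  · intro h hx
    apply ht₀
    have hle : Subgroup.normalClosure (insert x S) ≤ φ.ker := by
      refine Subgroup.normalClosure_le_normal ?_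
      intro y hy
      rcases hy with rfl | hy
      · exact hx
      · rw [← hS]; exact Subgroup.subset_normalClosure hy
    exact hle h

end simple

section subst
variable {n m : ℕ}

/-- substitution of words for letters -/
def subst (V : Fin n → W m) (w : Word n) : W m :=
  w.flatMap fun l => if l.2 = true then V l.1 else FreeGroup.invRev (V l.1)

theorem primrec_subst (V : Fin n → W m) : Primrec (subst V) := by
  unfold subst
  have h : Primrec fun l : Fin n × Bool =>
      if l.2 = true then V l.1 else FreeGroup.invRev (V l.1) := Primrec.dom_finite _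
  exact Primrec.list_flatMap Primrec.id (h.comp (Primrec.snd (α := Word n)))

theorem map_subst {G T : Type*} [Group G] [Group T] (gens : Fin n → G) (f : G →* T)
    (φ : FreeGroup (Fin m) →* T) (V : Fin n → W m)
    (hV : ∀ i, φ (FreeGroup.mk (V i)) = f (gens i)) (w : Word n) :
    φ (FreeGroup.mk (subst V w)) = f (evalWord gens w) := by
  induction w with
  | nil => simp [subst, evalWord, ← FreeGroup.one_eq_mk]
  | cons l w ih =>
    simp only [subst, evalWord, List.flatMap_cons, List.map_cons, List.prod_cons,
      ← FreeGroup.mul_mk, map_mul] at ih ⊢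
    rw [ih]
    congr 1
    rcases l with ⟨i, b⟩
    cases b <;> simp [← FreeGroup.inv_mk, hV]

end subst

/-- **Kuznetsov's theorem**, with respect to an arbitrary finite generating family. -/
theorem kuznetsov_gens {G : Type u} [Group G] (h : EmbedsInFinitelyPresentedSimpleGroup G)
    {n : ℕ} (gens : Fin n → G) :
    ComputablePred (fun w : Word n => evalWord gens w = 1) := by
  obtain ⟨T, _, hfp, hsimple, f, hf⟩ := h
  obtain ⟨m, φ, hφ, S, hSfin, hS⟩ := hfp.out
  -- words for the generators
  have hV : ∀ i, ∃ v : W m, φ (FreeGroup.mk v) = f (gens i) := fun i => by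
    obtain ⟨x, hx⟩ := hφ (f (gens i))
    exact ⟨x.toWord, by rw [FreeGroup.mk_toWord, hx]⟩
  choose V hV using hV
  -- list of relators
  let R : List (W m) := hSfin.toFinset.toList.map FreeGroup.toWord
  have hR : {x | ∃ w ∈ R, FreeGroup.mk w = x} = S := by
    ext x
    simp only [R, List.mem_map, Finset.mem_toList, Set.Finite.mem_toFinset, Set.mem_ofPred_eq]
    constructor
    · rintro ⟨_, ⟨y, hy, rfl⟩, rfl⟩
      rwa [FreeGroup.mk_toWord]
    · intro hx
      exact ⟨_, ⟨x, hx, rfl⟩, FreeGroup.mk_toWord⟩
  -- a nontrivial element
  obtain ⟨t, ht⟩ := exists_ne (1 : T)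
  obtain ⟨t₀, rfl⟩ := hφ t
  have key : ∀ w : Word n, evalWord gens w = 1 ↔ φ (FreeGroup.mk (subst V w)) = 1 := fun w => by
    rw [map_subst gens f φ V hV, map_eq_one_iff f hf]
  rw [ComputablePred.computable_iff_re_compl_re']
  constructor
  · refine rePred_of_exists (fun (w : Word n) (c : Cert m) => check R (subst V w) c) ?_ fun w => ?_
    · exact (primrec_check.comp (Primrec.pair (Primrec.pair (Primrec.const R)
        ((primrec_subst V).comp Primrec.fst)) Primrec.snd)).to_comp
    · rw [key, ← check_iff, normalClosure_relSeq, hR, hS, MonoidHom.mem_ker]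
  · refine rePred_of_exists
      (fun (w : Word n) (c : Cert m) => check (subst V w :: R) t₀.toWord c) ?_ fun w => ?_
    · exact (primrec_check.comp (Primrec.pair (Primrec.pair
        (Primrec.list_cons.comp ((primrec_subst V).comp Primrec.fst) (Primrec.const R))
        (Primrec.const _)) Primrec.snd)).to_comp
    · rw [key, ← check_iff, normalClosure_relSeq, FreeGroup.mk_toWord]
      have : {x | ∃ w' ∈ subst V w :: R, FreeGroup.mk w' = x} =
          insert (FreeGroup.mk (subst V w)) S := by
        rw [← hR]
        ext x
        simp [eq_comm]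
      rw [this]
      exact simple_trick φ hφ S hS t₀ ht _

/-- **Kuznetsov's theorem** (module A of row 152). -/
theorem kuznetsov {G : Type u} [Group G] [Group.FG G]
    (h : EmbedsInFinitelyPresentedSimpleGroup G) : HasDecidableWordProblem G := by
  obtain ⟨S, hS⟩ := Group.fg_def.1 (inferInstance : Group.FG G)
  let e := S.equivFin
  refine ⟨S.card, fun i => (e.symm i : G), ?_, kuznetsov_gens h _⟩
  have : Set.range (fun i => ((e.symm i : S) : G)) = (S : Set G) := by
    ext x
    constructor
    · rintro ⟨i, rfl⟩
      exact (e.symm i).2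
    · intro hx
      exact ⟨e ⟨x, hx⟩, by simp⟩
  rw [this, hS]

end Claimed.Agent.R152.A
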